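import Vale.Agent.P028KM.Defs
import Vale.Agent.P028KM.SumpPf


/-!
Module SUMP: tails of convergent series.
-/

namespace Vale.Agent.P028KM

open Finset MeasureTheory
open Vale.Agent.P028EV (q1 r1 Del hh)

theorem sump (C : ℝ) (hC : 0 < C) (δ : ℝ) (hδ : 0 < δ) : ∃ p0 : ℕ, 2 ≤ p0 ∧
    ∀ P : Finset ℕ, (∀ p ∈ P, p0 ≤ p) → ∑ p ∈ P, C * (p : ℝ) ^ (-(117 / 100) : ℝ) ≤ δ := by
  exact SumpPf.sump C hC δ hδ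

theorem sump2 (C : ℝ) (hC : 0 < C) : ∃ p0 : ℕ, 2 ≤ p0 ∧
    ∀ p : ℕ, p0 ≤ p → C * (p : ℝ) ^ (-(39 / 40) : ℝ) ≤ 1 / 2 := by
  exact SumpPf.sump2 C hC

end Vale.Agent.P028KM
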